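import Vale.Agent.P011IR.IF

/-!
Opposite root groups of different simple roots commute.
-/

set_option autoImplicit false
set_option linter.all false

namespace Vale.Agent.P011IL

open Vale.Agent.P183CH Vale.Agent.P092GP Vale.Agent.P092GP.LD

/-- the degrees which are positive at `i` and negative at `j` -/
def dMx {r : ℕ} (i j : Fin r) : AddSubsemigroup (Fin r → ℤ) where
  carrier := {μ | 0 < μ i ∧ μ j < 0}
  add_mem' := fun a b => ⟨add_pos a.1 b.1, add_neg a.2 b.2⟩

theorem cm : P011IR.CM := fun k G _ _ L H i j hij u hu v hv => by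
  have a1 : ∀ x ∈ dRay (L.R.α i), 0 < x i ∧ x j = 0 := by
    rintro _ ⟨c, hc, rfl⟩
    simp [RS.α_self, RS.α_ne hij.symm, hc]
  have a2 : ∀ x ∈ dRay (-L.R.α j), x i = 0 ∧ x j < 0 := by
    rintro _ ⟨c, hc, rfl⟩
    simp [RS.α_self, RS.α_ne hij, hc]
  have h1 : u * v * u⁻¹ * v⁻¹ ∈ UD L.wt L.ρ (dMx i j) := comm_UD hu hv
    (fun x a y b => ⟨by have := a1 x a; have := a2 y b; simp only [Pi.add_apply]; omega,
      by have := a1 x a; have := a2 y b; simp only [Pi.add_apply]; omega⟩)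
    (fun x a y b => ⟨add_pos (a1 x a).1 b.1,
      by have := a1 x a; have := b.2; simp only [Pi.add_apply]; omega⟩)
    (fun x a y b => ⟨by have := a2 x a; have := b.1; simp only [Pi.add_apply]; omega,
      add_neg (a2 x a).2 b.2⟩)
  have r := H.rep_nn j
  have m := H.root.map_mem (RS.sE_mem_W j) (H.root.simple i)
  have p1 : 0 < L.R.sE j (L.R.α i) := root_pos H.root m
    ((H.root.sign _ m).2.resolve_right fun c => by
      have := c i
      rw [H.root.sE_eq] at this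
      simp [RS.α_self, RS.α_ne hij] at this)
  have p2 : 0 < L.R.sE j (-L.R.α j) := by
    rw [map_neg, H.root.sE_α, neg_neg]
    exact H.α_pos j
  have u1 := X_le_Up p1 (r.conj_X hu)
  have v1 := X_le_Up p2 (r.conj_X hv)
  have h2 : L.nn j * (u * v * u⁻¹ * v⁻¹) * (L.nn j)⁻¹ = 1 := H.eq_one_of_dg
    (F := dW (L.R.sE j) (dMx i j)) (by
      have := mul_mem (mul_mem (mul_mem u1 v1) (inv_mem u1)) (inv_mem v1)
      rwa [show L.nn j * u * (L.nn j)⁻¹ * (L.nn j * v * (L.nn j)⁻¹) * (L.nn j * u * (L.nn j)⁻¹)⁻¹ *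
        (L.nn j * v * (L.nn j)⁻¹)⁻¹ = L.nn j * (u * v * u⁻¹ * v⁻¹) * (L.nn j)⁻¹ by group] at this)
    (r.conj_UD h1 fun x a => by rwa [mem_dW, H.root.sE_sE])
    fun l c => (H.sign_dg (RS.sE_mem_W j) l).elim (fun d => c.2.not_ge (d.le j))
      fun d => c.1.not_ge (d.le i)
  rw [conj_eq_one_iff, mul_inv_eq_one, mul_inv_eq_iff_eq_mul] at h2
  exact h2

end Vale.Agent.P011IL
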