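import Vale.Agent.P011I.IF
import Vale.Agent.P011IS.Loc
import Vale.Agent.P011NC.Pl

/-!
A local field over a global field whose separable extensions are separable over the global field.
-/

set_option autoImplicit false
set_option linter.all false

namespace Vale.Agent.P011IL

open Vale.Agent.P011L Vale.Agent.P011NC

/-- every global field has a system of places -/
theorem ex_gf (k : Type) [Field k] (hk : Glob k) :
    ∃ (P : Type) (a : P → AbsoluteValue k ℝ), Nonempty (GF k a) := by
  rcases hk with hk | ⟨E, _, _, _, _⟩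
  · exact ⟨_, _, ⟨gfNF k⟩⟩
  · have := P011.H271.GFF.mk' E k
    exact ⟨_, _, ⟨gfFF k⟩⟩

/-- a nonarchimedean completion -/
theorem ex_loc (k : Type) [Field k] (hk : Glob k) : ∃ (F : Type) (_ : NontriviallyNormedField F)
    (_ : ProperSpace F) (_ : IsUltrametricDist F) (_ : Algebra k F), DenseRange (algebraMap k F) := by
  obtain ⟨P, a, ⟨G⟩⟩ := ex_gf k hk
  obtain ⟨v, hv⟩ := G.ex
  refine ⟨G.Fv v, inferInstance, inferInstance, G.ultra_Fv hv, inferInstance, ?_⟩
  exact (UniformSpace.Completion.denseRange_coe (α := WithAbs (a v))).mono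
    (by rintro _ ⟨y, rfl⟩; exact ⟨WithAbs.ofAbs y, rfl⟩)

theorem loc : P011I.LOC := fun k _ hk => by
  obtain ⟨F, i1, i2, i3, i4, hd⟩ := ex_loc k hk
  exact ⟨F, i1, i2, i3, i4, fun L _ _ _ _ _ => P011IS.sepx_loc hk hd⟩

end Vale.Agent.P011IL
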